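import Vale.Agent.P098.Exact.Assemble
import Vale.Agent.P098.Exact.D5.Boundary

/-! The certificate in dimension five, from the interior positivity of its table. -/

noncomputable section

namespace Vale.Agent.P098.Exact.D5

/-- The certificate in dimension five. -/
def certOf (δ : ℝ) (hδ : 0 < δ)
    (hQ : ∀ (l v : Fin 5 → ℝ) (τ : Fin 5 → Fin 5 → Fin 5 → ℝ) (a : ℝ),
      Admissible l v τ → 0 ≤ a → δ ≤ Qval al table l v τ a 1) : Cert 5 :=
  mkCert al table (by norm_num [al]) (by norm_num [al]) δ hδ hQ boundary_table

end Vale.Agent.P098.Exact.D5
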