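import Vale.Agent.P098.Exact.Family

/-! Exponent and coefficient table of the certificate in dimension five (rounded from a linear program). -/

namespace Vale.Agent.P098.Exact.D5

/-- Homogeneity exponent. -/
noncomputable def al : ℝ := 53 / 100

/-- Terms of the flux: coefficient, form, exponents of the cubic trace, v.v, vAv, w. -/
def table : List Term := [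
  ⟨(240 : ℚ) / 256, .a1, 0, 0, 0, 0⟩,
  ⟨(87 : ℚ) / 256, .a1, 0, 0, 0, 1⟩,
  ⟨(31 : ℚ) / 256, .a1, 0, 0, 1, 0⟩,
  ⟨(-23 : ℚ) / 256, .a1, 0, 1, 0, 0⟩,
  ⟨(-161 : ℚ) / 256, .a1, 1, 0, 0, 0⟩,
  ⟨(137 : ℚ) / 256, .a1, 1, 1, 0, 0⟩,
  ⟨(208 : ℚ) / 256, .a2, 0, 0, 0, 0⟩,
  ⟨(-130 : ℚ) / 256, .a2, 0, 0, 0, 1⟩,
  ⟨(41 : ℚ) / 256, .a2, 0, 0, 1, 0⟩,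
  ⟨(-108 : ℚ) / 256, .a2, 0, 1, 0, 0⟩,
  ⟨(289 : ℚ) / 256, .s0, 0, 0, 0, 0⟩,
  ⟨(-125 : ℚ) / 256, .s1, 0, 0, 0, 0⟩,
  ⟨(-410 : ℚ) / 256, .s2, 0, 0, 0, 0⟩,
  ⟨(154 : ℚ) / 256, .s2, 1, 0, 0, 0⟩,
  ⟨(-94 : ℚ) / 256, .u0, 0, 0, 0, 0⟩,
  ⟨(136 : ℚ) / 256, .u0, 0, 0, 0, 1⟩,
  ⟨(278 : ℚ) / 256, .u0, 0, 0, 1, 0⟩,
  ⟨(567 : ℚ) / 256, .u0, 0, 1, 0, 0⟩,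
  ⟨(-350 : ℚ) / 256, .u0, 1, 0, 0, 0⟩,
  ⟨(136 : ℚ) / 256, .u0, 1, 1, 0, 0⟩,
  ⟨(200 : ℚ) / 256, .u1, 0, 0, 0, 0⟩,
  ⟨(-27 : ℚ) / 256, .u1, 0, 0, 0, 1⟩,
  ⟨(-135 : ℚ) / 256, .u1, 0, 0, 1, 0⟩,
  ⟨(-467 : ℚ) / 256, .u1, 0, 1, 0, 0⟩,
  ⟨(-270 : ℚ) / 256, .u1, 1, 0, 0, 0⟩,
  ⟨(692 : ℚ) / 256, .u1, 1, 1, 0, 0⟩,
  ⟨(426 : ℚ) / 256, .u2, 0, 0, 0, 0⟩,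
  ⟨(-291 : ℚ) / 256, .u2, 0, 0, 0, 1⟩,
  ⟨(-77 : ℚ) / 256, .u2, 0, 0, 1, 0⟩,
  ⟨(-1065 : ℚ) / 256, .u2, 0, 1, 0, 0⟩,
  ⟨(256 : ℚ) / 256, .u2, 1, 0, 0, 0⟩,
  ⟨(245 : ℚ) / 256, .u2, 1, 1, 0, 0⟩,
  ⟨(177 : ℚ) / 256, .dw, 0, 0, 0, 0⟩,
  ⟨(24 : ℚ) / 256, .dw, 0, 0, 0, 1⟩,
  ⟨(-175 : ℚ) / 256, .dw, 0, 1, 0, 0⟩,
  ⟨(-151 : ℚ) / 256, .dw, 1, 0, 0, 0⟩,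
  ⟨(151 : ℚ) / 256, .dw, 1, 1, 0, 0⟩]

end Vale.Agent.P098.Exact.D5
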